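import Mathlib

set_option autoImplicit false

/-!
# P181, TR12: the numbers, without letters
-/

namespace Vale.Agent.P181.TRT.H108

open Finset

theorem pow_le_fac (n : ℕ) : (n : ℝ) ^ n ≤ Real.exp n * n.factorial := by
  have h := Real.sum_le_exp_of_nonneg (x := (n : ℝ)) (Nat.cast_nonneg n) (n + 1)
  have h1 : (n : ℝ) ^ n / n.factorial ≤ ∑ i ∈ range (n + 1), (n : ℝ) ^ i / i.factorial :=
    Finset.single_le_sum (f := fun i => (n : ℝ) ^ i / i.factorial)
      (fun i _ => by positivity) (mem_range.2 (Nat.lt_succ_self n))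
  have h2 := h1.trans h
  have h3 : (0 : ℝ) < n.factorial := by exact_mod_cast n.factorial_pos
  rwa [div_le_iff₀ h3] at h2

theorem choose_le_three (n d : ℕ) (hn : 0 < n) :
    ((n + d).choose n : ℝ) ≤ (3 * (1 + (d : ℝ) / n)) ^ n := by
  have h1 : ((n + d).choose n : ℝ) ≤ ((n + d : ℕ) : ℝ) ^ n / n.factorial :=
    Nat.choose_le_pow_div n (n + d)
  have hn' : (0 : ℝ) < n := by exact_mod_cast hn
  have h3 : (0 : ℝ) < n.factorial := by exact_mod_cast n.factorial_pos
  refine h1.trans ?_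
  rw [div_le_iff₀ h3]
  have h4 : ((n + d : ℕ) : ℝ) = n * (1 + (d : ℝ) / n) := by
    push_cast; field_simp
  rw [h4, mul_pow, mul_pow]
  have h5 := pow_le_fac n
  have h6 : Real.exp n ≤ 3 ^ n := by
    have : Real.exp n = Real.exp 1 ^ n := by rw [← Real.exp_nat_mul]; simp
    rw [this]
    exact pow_le_pow_left₀ (Real.exp_pos 1).le Real.exp_one_lt_three.le n
  have h7 : (0 : ℝ) ≤ (1 + (d : ℝ) / n) ^ n := by positivity
  have h8 := mul_le_mul_of_nonneg_right (h5.trans (mul_le_mul_of_nonneg_right h6 h3.le)) h7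
  calc _ ≤ _ := h8
    _ = _ := by ring

theorem choose_le_pow (a d : ℕ) : (a + d).choose d ≤ (a + 1) ^ d := by
  induction d with
  | zero => simp
  | succ d ih =>
    have h := Nat.add_one_mul_choose_eq (a + d) d
    have h2 : (a + (d + 1)).choose (d + 1) * (d + 1) ≤ (a + 1) ^ (d + 1) * (d + 1) := by
      rw [← Nat.add_assoc]
      calc (a + d + 1).choose (d + 1) * (d + 1) = (a + d + 1) * (a + d).choose d := h.symm
        _ ≤ ((a + 1) * (d + 1)) * (a + 1) ^ d := Nat.mul_le_mul (by nlinarith) ih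
        _ = (a + 1) ^ (d + 1) * (d + 1) := by ring
    exact Nat.le_of_mul_le_mul_right h2 (Nat.succ_pos d)

theorem pw {x : ℝ} (hx : 0 < x) (n : ℕ) : x ^ n = Real.exp (n * Real.log x) := by
  rw [Real.exp_nat_mul, Real.exp_log hx]

theorem row {a N d mu X : ℕ} (ha : 1 ≤ a) (hN : 16 * a ≤ N) (hNX : 16 * N ≤ X * a)
    (hX : 10 ^ 6 * (1 + Real.log a) ≤ X) (hd : X * d ≤ mu) :
    ((a + d).choose d : ℝ) ^ 4 ≤ (1 + ((mu - d : ℕ) : ℝ) / N) ^ (N - a) := by
  have ha' : (1 : ℝ) ≤ a := by exact_mod_cast ha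
  have hlog : 0 ≤ Real.log a := Real.log_nonneg ha'
  have hX1 : (10 : ℝ) ^ 6 ≤ X := by nlinarith
  have hX2 : 10 ^ 6 ≤ X := by exact_mod_cast hX1
  have hN0 : 0 < N := by omega
  have hN0' : (0 : ℝ) < N := by exact_mod_cast hN0
  have hdm : d ≤ mu := le_trans (Nat.le_mul_of_pos_left d (by omega)) hd
  set y : ℝ := ((mu - d : ℕ) : ℝ) with hy
  have hy1 : y = mu - d := by rw [hy, Nat.cast_sub hdm]
  have hdX : (X : ℝ) * d ≤ mu := by exact_mod_cast hd
  have hd0 : (0 : ℝ) ≤ d := Nat.cast_nonneg d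
  have hy0 : 0 ≤ y := Nat.cast_nonneg _
  have ht0 : 0 ≤ y / N := div_nonneg hy0 hN0'.le
  rcases Nat.eq_zero_or_pos d with h0 | hpos
  · subst h0
    simp only [Nat.choose_zero_right, Nat.cast_one, one_pow]
    exact one_le_pow₀ (by linarith)
  by_cases hmu : mu ≤ 3 * N
  · have hmu' : (mu : ℝ) ≤ 3 * N := by exact_mod_cast hmu
    have ht3 : y / N ≤ 3 := by
      rw [div_le_iff₀ hN0']; linarith
    set t : ℝ := y / N with ht
    have hlogt : t / 4 ≤ Real.log (1 + t) := by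
      have h1 := Real.one_sub_inv_le_log_of_pos (x := 1 + t) (by positivity)
      have h2 : 1 - (1 + t)⁻¹ = t / (1 + t) := by field_simp; ring
      rw [h2] at h1
      exact (div_le_div_of_nonneg_left ht0 (by positivity) (by linarith)).trans h1
    have hloga : Real.log ((a : ℝ) + 1) ≤ 1 + Real.log a := by
      have h1 : (a : ℝ) + 1 ≤ Real.exp 1 * a := by
        have := Real.add_one_le_exp (1 : ℝ)
        nlinarith
      calc Real.log ((a : ℝ) + 1) ≤ Real.log (Real.exp 1 * a) :=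
            Real.log_le_log (by positivity) h1
        _ = 1 + Real.log a := by
            rw [Real.log_mul (Real.exp_pos 1).ne' (by positivity), Real.log_exp]
    have hC : ((a + d).choose d : ℝ) ≤ ((a : ℝ) + 1) ^ d := by
      exact_mod_cast choose_le_pow a d
    calc ((a + d).choose d : ℝ) ^ 4 ≤ (((a : ℝ) + 1) ^ d) ^ 4 :=
          pow_le_pow_left₀ (Nat.cast_nonneg _) hC 4
      _ = ((a : ℝ) + 1) ^ (d * 4) := by rw [pow_mul]
      _ = Real.exp (((d * 4 : ℕ) : ℝ) * Real.log ((a : ℝ) + 1)) := pw (by positivity) _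
      _ ≤ Real.exp (((N - a : ℕ) : ℝ) * Real.log (1 + t)) := by
          apply Real.exp_le_exp.2
          have hNa : (15 : ℝ) / 16 * N ≤ ((N - a : ℕ) : ℝ) := by
            rw [Nat.cast_sub (by omega)]
            have : (16 : ℝ) * a ≤ N := by exact_mod_cast hN
            linarith
          have h1 : (15 : ℝ) / 16 * N * (t / 4) ≤ ((N - a : ℕ) : ℝ) * Real.log (1 + t) :=
            mul_le_mul hNa hlogt (by positivity) (Nat.cast_nonneg _)
          have h2 : (15 : ℝ) / 16 * N * (t / 4) = 15 / 64 * y := by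
            rw [ht]; field_simp; ring
          have h3 : ((X : ℝ) - 1) * d ≤ y := by rw [hy1]; linarith
          have h4 : ((d * 4 : ℕ) : ℝ) * Real.log ((a : ℝ) + 1) ≤ 4 * d * (1 + Real.log a) := by
            push_cast
            nlinarith [mul_le_mul_of_nonneg_left hloga hd0]
          have h5 : 4 * (1 + Real.log a) ≤ 15 / 64 * ((X : ℝ) - 1) := by linarith
          have h6 := mul_le_mul_of_nonneg_left h5 hd0
          nlinarith
      _ = (1 + t) ^ (N - a) := (pw (by positivity) _).symm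
  · have hmu' : (3 : ℝ) * N < mu := by exact_mod_cast not_le.1 hmu
    have hmu0 : (0 : ℝ) ≤ mu := Nat.cast_nonneg _
    have hda : 10 ^ 6 * (d : ℝ) ≤ mu := by nlinarith
    have ht2 : 2 ≤ y / N := by
      rw [le_div_iff₀ hN0']; linarith
    have hdt : (d : ℝ) / a ≤ y / N := by
      rw [div_le_div_iff₀ (by positivity) hN0']
      have h1 : (16 : ℝ) * N ≤ X * a := by exact_mod_cast hNX
      have h2 : (d : ℝ) * (16 * N) ≤ d * (X * a) := mul_le_mul_of_nonneg_left h1 hd0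
      have h3 : (X : ℝ) * d * a ≤ mu * a := mul_le_mul_of_nonneg_right hdX (by positivity)
      have h4 : (mu : ℝ) ≤ 2 * y := by linarith
      have h5 : (mu : ℝ) * a ≤ 2 * y * a := mul_le_mul_of_nonneg_right h4 (by positivity)
      nlinarith
    set t : ℝ := y / N with ht
    have hC : ((a + d).choose d : ℝ) ≤ ((1 + t) ^ 2) ^ a := by
      rw [← Nat.choose_symm_add]
      refine (choose_le_three a d ha).trans ?_
      refine pow_le_pow_left₀ (by positivity) ?_ a
      nlinarith [div_nonneg hd0 (by positivity : (0 : ℝ) ≤ a)]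
    calc ((a + d).choose d : ℝ) ^ 4 ≤ (((1 + t) ^ 2) ^ a) ^ 4 :=
          pow_le_pow_left₀ (Nat.cast_nonneg _) hC 4
      _ = (1 + t) ^ (8 * a) := by rw [← pow_mul, ← pow_mul]; congr 1; ring
      _ ≤ (1 + t) ^ (N - a) := pow_le_pow_right₀ (by linarith) (by omega)

theorem one_add_sum_le {ι : Type} (s : Finset ι) (x : ι → ℝ) (hx : ∀ i ∈ s, 0 ≤ x i) :
    1 + ∑ i ∈ s, x i ≤ ∏ i ∈ s, (1 + x i) := by
  classical
  induction s using Finset.induction_on with
  | empty => simp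
  | insert a s ha ih =>
    rw [Finset.sum_insert ha, Finset.prod_insert ha]
    have h1 := ih (fun i hi => hx i (Finset.mem_insert_of_mem hi))
    have h2 := hx a (Finset.mem_insert_self a s)
    have h3 : 0 ≤ ∑ i ∈ s, x i :=
      Finset.sum_nonneg fun i hi => hx i (Finset.mem_insert_of_mem hi)
    nlinarith

theorem prod_ge_sq {ι : Type} (s : Finset ι) (y : ι → ℝ) {M N : ℝ} (hM : 0 < M) (hN : 0 < N)
    (h0 : ∀ i ∈ s, 0 ≤ y i) (h1 : ∀ i ∈ s, y i ≤ M) (h2 : 2 * M ≤ ∑ i ∈ s, y i) :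
    (1 + M / N) ^ 2 ≤ ∏ i ∈ s, (1 + y i / N) := by
  have hq : 0 < M / N := by positivity
  have hb : 0 < 1 + M / N := by positivity
  have hb1 : 1 ≤ 1 + M / N := by linarith
  have hstep : ∀ i ∈ s, (1 + M / N) ^ (y i / M) ≤ 1 + y i / N := by
    intro i hi
    have := rpow_one_add_le_one_add_mul_self (s := M / N) (by linarith)
      (p := y i / M) (div_nonneg (h0 i hi) hM.le) ((div_le_one hM).2 (h1 i hi))
    calc _ ≤ 1 + y i / M * (M / N) := this
      _ = 1 + y i / N := by field_simp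
  calc (1 + M / N) ^ 2 = (1 + M / N) ^ ((2 : ℕ) : ℝ) := (Real.rpow_natCast _ _).symm
    _ ≤ (1 + M / N) ^ (∑ i ∈ s, y i / M) := Real.rpow_le_rpow_of_exponent_le hb1 (by
        rw [← Finset.sum_div, le_div_iff₀ hM]; push_cast; exact h2)
    _ = ∏ i ∈ s, (1 + M / N) ^ (y i / M) := Real.rpow_sum_of_pos hb _ s
    _ ≤ _ := Finset.prod_le_prod (fun i _ => (Real.rpow_pos_of_pos hb _).le) hstep

theorem prodP {m : ℕ} (mu dl : Fin (m + 1) → ℕ) {X N w : ℕ} (hX : 10 ^ 6 ≤ X) (hN : 0 < N)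
    (hw0 : 0 < w) (hw : ∑ i, mu i = w) (hD : w ≤ X * ∑ i : Fin m, mu i.succ)
    (hmu : Antitone mu) (hdl : ∀ i, X * dl i ≤ mu i) :
    (1 + (w : ℝ) / (16 * X * N)) ^ 2 ≤ ∏ i, (1 + ((mu i - dl i : ℕ) : ℝ) / N) := by
  have hN' : (0 : ℝ) < N := by exact_mod_cast hN
  have hw' : (0 : ℝ) < w := by exact_mod_cast hw0
  have hX' : (10 : ℝ) ^ 6 ≤ X := by exact_mod_cast hX
  have hX0 : (0 : ℝ) < X := by linarith
  set y : Fin (m + 1) → ℝ := fun i => ((mu i - dl i : ℕ) : ℝ) with hy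
  have hy0 : ∀ i, 0 ≤ y i := fun i => Nat.cast_nonneg _
  have hdm : ∀ i, 2 * dl i ≤ mu i := fun i =>
    le_trans (Nat.mul_le_mul_right _ (by omega)) (hdl i)
  have hy1 : ∀ i, y i ≤ mu i := fun i => by
    simp only [hy]; exact_mod_cast Nat.sub_le _ _
  have hy2 : ∀ i, (mu i : ℝ) ≤ 2 * y i := fun i => by
    simp only [hy]; have := hdm i; exact_mod_cast (by omega : mu i ≤ 2 * (mu i - dl i))
  have hq0 : 0 < (w : ℝ) / (16 * X * N) := by positivity
  change _ ≤ ∏ i, (1 + y i / N)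
  by_cases h : (w : ℝ) ≤ 8 * X * mu 0
  · rw [Fin.prod_univ_succ, sq]
    refine mul_le_mul ?_ ?_ (by positivity) (by have := div_nonneg (hy0 0) hN'.le; linarith)
    · have h1 : (w : ℝ) / (16 * X * N) ≤ y 0 / N := by
        rw [div_le_div_iff₀ (by positivity) hN']
        have := hy2 0
        have h3 : (w : ℝ) ≤ 16 * X * y 0 := by nlinarith
        calc (w : ℝ) * N ≤ 16 * X * y 0 * N := mul_le_mul_of_nonneg_right h3 hN'.le
          _ = y 0 * (16 * X * N) := by ring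
      linarith
    · refine le_trans ?_ (one_add_sum_le Finset.univ (fun i : Fin m => y i.succ / N)
        (fun i _ => div_nonneg (hy0 _) hN'.le))
      rw [← Finset.sum_div]
      have h1 : ((∑ i : Fin m, mu i.succ : ℕ) : ℝ) ≤ 2 * ∑ i : Fin m, y i.succ := by
        push_cast
        rw [Finset.mul_sum]
        exact Finset.sum_le_sum fun i _ => hy2 _
      have h2 : (w : ℝ) ≤ X * ((∑ i : Fin m, mu i.succ : ℕ) : ℝ) := by exact_mod_cast hD
      have h3 : (w : ℝ) / (16 * X * N) ≤ (∑ i : Fin m, y i.succ) / N := by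
        rw [div_le_div_iff₀ (by positivity) hN']
        have h4 : 0 ≤ ∑ i : Fin m, y i.succ := Finset.sum_nonneg fun i _ => hy0 _
        have h5 : (w : ℝ) ≤ X * (2 * ∑ i : Fin m, y i.succ) :=
          h2.trans (mul_le_mul_of_nonneg_left h1 hX0.le)
        have h6 : (w : ℝ) ≤ 16 * X * ∑ i : Fin m, y i.succ := by nlinarith [mul_nonneg hX0.le h4]
        calc (w : ℝ) * N ≤ 16 * X * (∑ i : Fin m, y i.succ) * N :=
              mul_le_mul_of_nonneg_right h6 hN'.le
          _ = (∑ i : Fin m, y i.succ) * (16 * X * N) := by ring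
      linarith
  · have h' := (not_le.1 h)
    have hM : (0 : ℝ) < w / (8 * X) := by positivity
    have hle : ∀ i, y i ≤ w / (8 * X) := fun i => by
      rw [le_div_iff₀ (by positivity)]
      have h1 : (mu i : ℝ) ≤ mu 0 := by exact_mod_cast hmu (Fin.zero_le i)
      have h2 := hy1 i
      nlinarith [mul_le_mul_of_nonneg_right (h2.trans h1) (by positivity : (0 : ℝ) ≤ 8 * X)]
    have hs : 2 * ((w : ℝ) / (8 * X)) ≤ ∑ i, y i := by
      have h1 : (w : ℝ) ≤ 2 * ∑ i, y i := by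
        rw [← hw]; push_cast; rw [Finset.mul_sum]
        exact Finset.sum_le_sum fun i _ => hy2 _
      have h2 : 2 * ((w : ℝ) / (8 * X)) ≤ w / 2 := by
        rw [← mul_div_assoc, div_le_div_iff₀ (by positivity) (by norm_num)]
        nlinarith
      linarith
    refine le_trans ?_ (prod_ge_sq Finset.univ y hM hN' (fun i _ => hy0 i) (fun i _ => hle i) hs)
    refine pow_le_pow_left₀ (by positivity) ?_ 2
    have : (w : ℝ) / (16 * X * N) ≤ w / (8 * X) / N := by
      rw [div_div]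
      exact div_le_div_of_nonneg_left hw'.le (by positivity) (by nlinarith [mul_pos hX0 hN'])
    linarith

theorem fin4 {N a w X : ℕ} {P : ℝ} (ha : 0 < a) (hN : 16 * a ≤ N) (hX : 10 ^ 6 ≤ X)
    (hR : X ^ 98 * N ≤ w) (hP : (1 + (w : ℝ) / (16 * X * N)) ^ 2 ≤ P) :
    ((((N + w).choose w * X ^ (9 * N) : ℕ) : ℝ)) ^ 4 ≤ P ^ (3 * (N - a)) := by
  have hN0 : 0 < N := by omega
  have hN' : (0 : ℝ) < N := by exact_mod_cast hN0
  have hX' : (10 : ℝ) ^ 6 ≤ X := by exact_mod_cast hX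
  have hX0 : (0 : ℝ) < X := by linarith
  have hX1 : (1 : ℝ) ≤ X := by linarith
  set R : ℝ := (w : ℝ) / N with hRdef
  have hR' : (X : ℝ) ^ 98 ≤ R := by
    rw [hRdef, le_div_iff₀ hN']; exact_mod_cast hR
  have hR43 : (X : ℝ) ^ 43 ≤ R := (pow_le_pow_right₀ hX1 (by norm_num)).trans hR'
  have hR1 : 1 ≤ R := (one_le_pow₀ hX1).trans hR'
  have hR0 : 0 < R := by linarith
  set Q : ℝ := 1 + (w : ℝ) / (16 * X * N) with hQ
  have hQR : Q = 1 + R / (16 * X) := by
    rw [hQ, hRdef]; field_simp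
  have hQ1 : 1 ≤ Q := by rw [hQR]; have : 0 < R / (16 * X) := by positivity
                         linarith
  have key : (3 * (1 + R) * (X : ℝ) ^ 9) ^ 4 ≤ Q ^ 5 := by
    have h1 : (R / (16 * X)) ^ 5 ≤ Q ^ 5 :=
      pow_le_pow_left₀ (by positivity) (by rw [hQR]; linarith) 5
    have h2 : (3 * (1 + R) * (X : ℝ) ^ 9) ^ 4 ≤ (6 * R * (X : ℝ) ^ 9) ^ 4 := by
      refine pow_le_pow_left₀ (by positivity) ?_ 4
      exact mul_le_mul_of_nonneg_right (by linarith) (by positivity)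
    refine h2.trans (le_trans ?_ h1)
    rw [div_pow, le_div_iff₀ (by positivity)]
    have h3 : (6 : ℝ) ^ 4 * 16 ^ 5 * X ^ 41 ≤ R := by
      refine le_trans ?_ hR43
      have : (6 : ℝ) ^ 4 * 16 ^ 5 ≤ X ^ 2 := by nlinarith
      calc (6 : ℝ) ^ 4 * 16 ^ 5 * X ^ 41 ≤ X ^ 2 * X ^ 41 :=
            mul_le_mul_of_nonneg_right this (by positivity)
        _ = X ^ 43 := by ring
    calc (6 * R * (X : ℝ) ^ 9) ^ 4 * (16 * X) ^ 5
        = R ^ 4 * ((6 : ℝ) ^ 4 * 16 ^ 5 * X ^ 41) := by ring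
      _ ≤ R ^ 4 * R := mul_le_mul_of_nonneg_left h3 (by positivity)
      _ = R ^ 5 := by ring
  have hC : ((N + w).choose w : ℝ) ≤ (3 * (1 + R)) ^ N := by
    rw [← Nat.choose_symm_add]; exact choose_le_three N w hN0
  calc ((((N + w).choose w * X ^ (9 * N) : ℕ) : ℝ)) ^ 4
      = (((N + w).choose w : ℝ) * (X : ℝ) ^ (9 * N)) ^ 4 := by push_cast; ring
    _ ≤ ((3 * (1 + R)) ^ N * (X : ℝ) ^ (9 * N)) ^ 4 :=
        pow_le_pow_left₀ (by positivity) (mul_le_mul_of_nonneg_right hC (by positivity)) 4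
    _ = ((3 * (1 + R) * (X : ℝ) ^ 9) ^ 4) ^ N := by
        rw [pow_mul (X : ℝ) 9 N, ← mul_pow, ← pow_mul, ← pow_mul, mul_comm N 4]
    _ ≤ (Q ^ 5) ^ N := pow_le_pow_left₀ (by positivity) key N
    _ = Q ^ (5 * N) := by rw [← pow_mul]
    _ ≤ Q ^ (2 * (3 * (N - a))) := pow_le_pow_right₀ hQ1 (by omega)
    _ = (Q ^ 2) ^ (3 * (N - a)) := by rw [pow_mul]
    _ ≤ P ^ (3 * (N - a)) := pow_le_pow_left₀ (by positivity) hP _

end Vale.Agent.P181.TRT.H108
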