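import Vale.Agent.P181.TRT.Defs
import Vale.Agent.P181.TRT.H108.Num

set_option autoImplicit false

/-!
# P181, TR12: `NumC`
-/

namespace Vale.Agent.P181.TRT.H108

open Finset Vale.Agent.P181.SZ
open Vale.Agent.P181.PL (dn)

theorem dn_one {m : ℕ} (lam : Fin (m + 1) → ℕ) : dn lam 1 = ∑ i, tl lam i := by
  rw [dn, Fin.sum_univ_succ]
  simp [tl]

theorem dn_two {m : ℕ} (lam : Fin (m + 2) → ℕ) : dn lam 2 = ∑ i : Fin m, tl lam i.succ := by
  rw [dn, Fin.sum_univ_succ, Fin.sum_univ_succ]
  simp [tl]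

/-- **(TR12)** -/
theorem numC : NumC := by
  intro a b m X lam H dl hdl
  obtain ⟨hanti, hsum, hma, hb, hbX, h32, haw, hwD, hXa, hXlog⟩ := H
  have ha : 0 < a := by omega
  have ha' : (1 : ℝ) ≤ a := by exact_mod_cast ha
  have hlog : 0 ≤ Real.log a := Real.log_nonneg ha'
  have hX1 : (10 : ℝ) ^ 6 ≤ X := by nlinarith
  have hX2 : 10 ^ 6 ≤ X := by exact_mod_cast hX1
  have hw1 := dn_one lam
  generalize hw : dn lam 1 = w at *
  have hw0 : 0 < w := by
    rcases Nat.eq_zero_or_pos w with h0 | h0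
    · subst h0
      have : 0 < a ^ 2 := by positivity
      omega
    · exact h0
  have hN16 : 16 * a ≤ N0 a w := Nat.le_add_right _ _
  have hN0 : 0 < N0 a w := lt_of_lt_of_le (by omega) hN16
  have hdiv : w / a * a ≤ w := Nat.div_mul_le_self w a
  have hNX : 16 * N0 a w ≤ X * a := by
    have h1 : 32 * (w / a) * a ≤ X * a * a := by
      calc 32 * (w / a) * a = 32 * (w / a * a) := by ring
        _ ≤ 32 * w := Nat.mul_le_mul_left _ hdiv
        _ ≤ a * b := h32
        _ ≤ a * (X * a) := Nat.mul_le_mul_left _ hbX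
        _ = X * a * a := by ring
    have h2 : 32 * (w / a) ≤ X * a := Nat.le_of_mul_le_mul_right h1 ha
    have h3 : 512 * a ≤ X * a := Nat.mul_le_mul_right _ (by omega)
    have h4 : N0 a w = 16 * a + w / a := rfl
    generalize w / a = q at *
    omega
  have hR : X ^ 98 * N0 a w ≤ w := by
    have h1 : 2 * (X ^ 98 * (w / a)) ≤ w := by
      calc 2 * (X ^ 98 * (w / a)) = (2 * X ^ 98) * (w / a) := by ring
        _ ≤ a * (w / a) := by
            refine Nat.mul_le_mul_right _ (le_trans ?_ hXa)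
            calc 2 * X ^ 98 ≤ X ^ 2 * X ^ 98 := Nat.mul_le_mul_right _ (by nlinarith)
              _ = X ^ 100 := by ring
        _ ≤ w := by rw [mul_comm]; exact hdiv
    have h2 : 2 * (X ^ 98 * (16 * a)) ≤ w := by
      have h3 : X * (2 * (X ^ 98 * (16 * a))) ≤ X * w := by
        calc X * (2 * (X ^ 98 * (16 * a))) = (32 * X ^ 99) * a := by ring
          _ ≤ a * a := by
              refine Nat.mul_le_mul_right _ (le_trans ?_ hXa)
              calc 32 * X ^ 99 ≤ X * X ^ 99 := Nat.mul_le_mul_right _ (by omega)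
                _ = X ^ 100 := by ring
          _ = a ^ 2 := by ring
          _ ≤ X * w := haw
      exact Nat.le_of_mul_le_mul_left h3 (by omega)
    calc X ^ 98 * N0 a w = X ^ 98 * (16 * a) + X ^ 98 * (w / a) := by
          rw [← mul_add]; rfl
      _ ≤ w := by omega
  -- there are at least two rows below the first one
  obtain ⟨k, rfl⟩ : ∃ k, m = k + 1 := by
    rcases m with _ | k
    · exfalso
      have : dn lam 2 = 0 := by
        rw [dn, Fin.sum_univ_succ]; simp
      rw [this] at hwD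
      omega
    · exact ⟨k, rfl⟩
  rw [dn_two] at hwD
  have hmu : Antitone (tl lam) := fun i j hij => hanti (Fin.succ_le_succ_iff.2 hij)
  have hP := prodP (tl lam) dl hX2 hN0 hw0 hw1.symm hwD hmu hdl
  set P : ℝ := ∏ i, (1 + ((tl lam i - dl i : ℕ) : ℝ) / N0 a w) with hPdef
  have hP0 : 0 ≤ P := le_trans (by positivity) hP
  have hB := fin4 ha hN16 hX2 hR hP
  have hA : ((∏ i, (a + dl i).choose (dl i) : ℕ) : ℝ) ^ 4 ≤ P ^ (N0 a w - a) := by
    rw [Nat.cast_prod, ← Finset.prod_pow, hPdef, ← Finset.prod_pow]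
    exact Finset.prod_le_prod (fun i _ => by positivity)
      (fun i _ => row ha hN16 hNX hXlog (hdl i))
  rw [← pow_le_pow_iff_left₀ (by positivity) (by positivity) (by norm_num : (4 : ℕ) ≠ 0), mul_pow]
  calc _ ≤ P ^ (N0 a w - a) * P ^ (3 * (N0 a w - a)) :=
        mul_le_mul hA hB (by positivity) (by positivity)
    _ = (P ^ (N0 a w - a)) ^ 4 := by rw [← pow_add, ← pow_mul]; congr 1; ring

end Vale.Agent.P181.TRT.H108

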